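import Vale.Agent.P343.Bdl.B1

/-!
The Sakoda-Sipser question: converting one-way (hence also two-way) nondeterministic automata with
`n` states to equivalent two-way deterministic automata costs at least `2 ^ j` states whenever
`17 * j + 20 ≤ n`, that is `2 ^ Ω(n)` states; so no polynomial bounds the cost.
-/

namespace Vale.Agent.Results.P343.SakodaSipser

open Vale.Agent.P343

theorem result :
    (∀ n j : ℕ, 17 * j + 20 ≤ n →
      ∃ (α : Type) (_ : Finite α) (A : TwoNFA α (Fin n)), A.OneWay ∧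
        ∀ (s : ℕ) (B : TwoNFA α (Fin s)), B.Deterministic → Equivalent A B → 2 ^ j ≤ s) ∧
    (¬ ∃ p : Polynomial ℝ, ∀ (α : Type) (_ : Finite α) (n : ℕ) (A : TwoNFA α (Fin n)),
      ∃ s : ℕ, (s : ℝ) ≤ p.eval (n : ℝ) ∧
        ∃ B : TwoNFA α (Fin s), B.Deterministic ∧ Equivalent A B) ∧
    (¬ ∃ p : Polynomial ℝ, ∀ (α : Type) (_ : Finite α) (n : ℕ) (A : TwoNFA α (Fin n)), A.OneWay →
      ∃ s : ℕ, (s : ℝ) ≤ p.eval (n : ℝ) ∧
        ∃ B : TwoNFA α (Fin s), B.Deterministic ∧ Equivalent A B) :=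
  ⟨linear_lower, no_polynomial, no_polynomial_oneWay⟩

end Vale.Agent.Results.P343.SakodaSipser
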